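import Vale.Agent.P032.H859.Rup
import Mathlib.Data.Fintype.Card
import Mathlib.Data.Fin.VecNotation
import Mathlib.Data.Finset.Card
import Mathlib.Data.ZMod.Basic
import Mathlib.Tactic

/-!
# P032: the letter rules on the lattice patch

`At` : the atoms on the lattice (coordinates in `ℤ × ℤ`, six directions `dx`, `dy`).
`LOW A` : the rules, one field for each family.
`nu A` : the valuation of the variables (19 points).
-/

namespace Vale.Agent.P032.H184

open Vale.Agent.P032.H859.Rup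

/-- the steps -/
def dx : Fin 6 → ℤ := ![1, 0, -1, -1, 0, 1]
def dy : Fin 6 → ℤ := ![0, 1, 1, 0, -1, -1]

/-- the atoms : `TT m n i` the colour `i` is in the palette of the point, `LT s m n j i` it is in the
letter at the slot `j` of the circle about the point, before (`s = false`) or after (`true`), `IN`,
`OUT` from inside, outside, `MM` : exact arc palettes; `win s i` : the window of the colour `i` at the
centre (first sector, number of further sectors); `IC k c`, `OC k c` : the colour `c` occurs near the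
neighbour `k` of the centre inside, outside the circle. -/
structure At where
  TT : ℤ → ℤ → Fin 6 → Prop
  LT : Bool → ℤ → ℤ → Fin 6 → Fin 6 → Prop
  IN : Bool → ℤ → ℤ → Fin 6 → Fin 6 → Prop
  OUT : Bool → ℤ → ℤ → Fin 6 → Fin 6 → Prop
  MM : ℤ → ℤ → Fin 6 → Fin 6 → Prop
  win : Bool → Fin 6 → ZMod 6 × ℕ
  IC : Fin 6 → Fin 6 → Prop
  OC : Fin 6 → Fin 6 → Prop

/-- at least `k` colours -/
def At.GE (A : At) (m n : ℤ) (k : ℕ) : Prop :=
  ∃ S : Finset (Fin 6), S.card = k ∧ ∀ i ∈ S, A.TT m n i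

/-- the neighbour `j'` of the slot point `j` is on the side to which the slot point moves -/
def swO (s : Bool) (j j' : Fin 6) : Bool :=
  bif s then (j' == j + 1 || j' == j + 2) else (j' == j + 4 || j' == j + 5)
def swI (s : Bool) (j j' : Fin 6) : Bool :=
  bif s then (j' == j + 4 || j' == j + 5) else (j' == j + 1 || j' == j + 2)

/-! windows (the same definitions as in `H429.Line`, `H158.Rel`) -/

def inn (w : ZMod 6 × ℕ) (j : ZMod 6) : Prop := (w.1 - j + 3).val + w.2 ≤ 2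
def out (w : ZMod 6 × ℕ) (j : ZMod 6) : Prop := inn w (j + 3)
def clen (w w' : ZMod 6 × ℕ) : ℕ := if w'.1 = w.1 then w'.2 + 1 else w'.2
def outc (w w' : ZMod 6 × ℕ) (j : ZMod 6) : Prop := (w.1 - j).val + clen w w' ≤ 3
def innc (w w' : ZMod 6 × ℕ) (j : ZMod 6) : Prop := outc w w' (j + 3)
def WStep (w w' : ZMod 6 × ℕ) : Prop :=
  (w' = w) ∨ (w' = (w.1 - 1, w.2 + 1)) ∨ (w' = (w.1 - 1, w.2)) ∨ (1 ≤ w.2 ∧ w' = (w.1, w.2 - 1))

/-- **the rules** -/
structure LOW (A : At) : Prop where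
  six : ∀ i, A.TT 0 0 i
  memb : ∀ s m n j i, A.LT s m n j i → A.TT (m + dx j) (n + dy j) i
  neI : ∀ s m n j, ∃ i, A.IN s m n j i
  neO : ∀ s m n j, ∃ i, A.OUT s m n j i
  inL : ∀ s m n j i, A.IN s m n j i → A.LT s m n j i
  outL : ∀ s m n j i, A.OUT s m n j i → A.LT s m n j i
  lio : ∀ s m n j i, A.LT s m n j i → A.IN s m n j i ∨ A.OUT s m n j i
  pair2 : ∀ s m n j i, A.LT s m n j i → A.TT m n i → ∃ i', i' ≠ i ∧ A.LT s m n j i'
  sub4 : ∀ s m n j, A.GE m n 4 ∨ ∃ i, A.LT s m n j i ∧ ¬ A.TT m n i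
  sideIO : ∀ s j i, A.IN s 0 0 j i → ¬ A.OUT s 0 0 j i
  side4 : ∀ s m n j x y a b, x ≠ y → x ≠ a → x ≠ b → y ≠ a → y ≠ b → a ≠ b → A.MM m n x y →
    A.MM m n a b → A.IN s m n j x → A.OUT s m n j x → A.GE m n 5
  symM : ∀ m n a b, A.MM m n a b → A.MM m n b a
  defM : ∀ s m n j a b, a ≠ b → A.LT s m n j a → A.LT s m n j b → A.TT m n a → A.TT m n b →
    A.MM m n a b ∨ ∃ c, c ≠ a ∧ c ≠ b ∧ A.LT s m n j c
  sweepO : ∀ s m n j j', swO s j j' = true →
    ∀ s', ∃ c, ¬ A.LT s m n j c ∧ A.OUT s' (m + dx j) (n + dy j) j' c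
  sweepI : ∀ s m n j j', swI s j j' = true →
    ∀ s', ∃ c, ¬ A.LT s m n j c ∧ A.IN s' (m + dx j) (n + dy j) j' c
  wedgeO : ∀ s m n j, ∃ c, ¬ A.LT s m n j c ∧ A.OUT s (m + dx j) (n + dy j) j c
  wedgeI : ∀ s m n j, ∃ c, ¬ A.LT s m n j c ∧ A.IN (!s) (m + dx j) (n + dy j) j c
  wedgeO' : ∀ s m n j, ∃ c, ¬ A.LT s m n j c ∧ A.OUT (!s) (m + dx j) (n + dy j) (j + 3) c
  wedgeI' : ∀ s m n j, ∃ c, ¬ A.LT s m n j c ∧ A.IN s (m + dx j) (n + dy j) (j + 3) c
  sixty : ∀ s m n j i, A.LT s m n j i → ¬ A.LT s m n (j + 1) i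
  product : ∀ s m n j l i, A.LT s m n j i → ¬ A.LT s (m + dx l) (n + dy l) j i
  mdeg4 : ∀ m n i a b, i ≠ a → i ≠ b → a ≠ b → A.MM m n i a → A.MM m n i b → A.GE m n 5
  mdeg5 : ∀ m n i a b c, i ≠ a → i ≠ b → i ≠ c → a ≠ b → a ≠ c → b ≠ c →
    A.MM m n i a → A.MM m n i b → A.MM m n i c → A.GE m n 6
  mdeg6 : ∀ m n i a b c d, i ≠ a → i ≠ b → i ≠ c → i ≠ d → a ≠ b → a ≠ c → a ≠ d → b ≠ c → b ≠ d →
    c ≠ d → A.MM m n i a → A.MM m n i b → A.MM m n i c → ¬ A.MM m n i d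
  k23 : ∀ m n a b c d e, a ≠ b → c ≠ d → c ≠ e → d ≠ e → a ≠ c → a ≠ d → a ≠ e → b ≠ c → b ≠ d →
    b ≠ e → A.MM m n a c → A.MM m n a d → A.MM m n a e → A.MM m n b c → A.MM m n b d →
    ¬ A.MM m n b e
  c4 : ∀ m n a b c d, a ≠ b → c ≠ d → a ≠ c → a ≠ d → b ≠ c → b ≠ d →
    A.MM m n a c → A.MM m n a d → A.MM m n b c → A.MM m n b d → A.GE m n 6
  notsub : ∀ m n j, A.GE m n 4 ∨ ∃ i, A.TT (m + dx j) (n + dy j) i ∧ ¬ A.TT m n i
  third : ∀ m n j l t, l ≠ j → l ≠ j + 3 → A.TT (m + dx j + dx l) (n + dy j + dy l) t →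
    A.GE m n 4 ∨ ∃ i, i ≠ t ∧ A.TT (m + dx j) (n + dy j) i ∧ ¬ A.TT m n i
  lemB : ∀ m n j l i i', l ≠ j → l ≠ j + 3 → i ≠ i' → A.TT (m + dx j) (n + dy j) i →
    A.TT (m + dx l) (n + dy l) i' → ∃ c, c ≠ i ∧ c ≠ i' ∧ A.TT m n c
  wlen : ∀ s i, (A.win s i).2 ≤ 3
  wstep : ∀ i, WStep (A.win false i) (A.win true i)
  winn : ∀ s j i, A.IN s 0 0 j i → inn (A.win s i) (j.val : ZMod 6)
  wout : ∀ s j i, A.OUT s 0 0 j i → out (A.win s i) (j.val : ZMod 6)
  cover : ∀ s (m : ZMod 6), ∃ i, ∃ d : Fin 3, d.val < (A.win s i).2 ∧ (A.win s i).1 + d.val + 1 = m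
  side : ∀ k c, A.TT (dx k) (dy k) c → A.IC k c ∨ A.OC k c
  icT : ∀ k c, A.IC k c → A.TT (dx k) (dy k) c
  ocT : ∀ k c, A.OC k c → A.TT (dx k) (dy k) c
  hullO : ∀ k c, A.OC k c → outc (A.win false c) (A.win true c) (k.val : ZMod 6)
  hullI : ∀ k c, A.IC k c → innc (A.win false c) (A.win true c) (k.val : ZMod 6)
  sidezI : ∀ s k c, A.IN s 0 0 k c → A.IC k c
  sidezO : ∀ s k c, A.OUT s 0 0 k c → A.OC k c
  sidelI : ∀ s k m c, swI s k m = true → A.LT s (dx k + dx m) (dy k + dy m) (m + 3) c → A.IC k c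
  sidelO : ∀ s k m c, (swO s k m = true ∨ m = k) →
    A.LT s (dx k + dx m) (dy k + dy m) (m + 3) c → A.OC k c

/-! ### Points, variables, valuation -/

/-- coordinates of the 19 points -/
def px (p : ℕ) : ℤ := [0, 1, 0, -1, -1, 0, 1, 2, 1, 0, -1, -2, -2, -2, -1, 0, 1, 2, 2].getD p 0
def py (p : ℕ) : ℤ := [0, 0, 1, 1, 0, -1, -1, 0, 1, 2, 2, 2, 1, 0, -1, -2, -2, -2, -1].getD p 0

/-- neighbours (`19` : none) -/
def nb (p k : ℕ) : ℕ :=
  [1, 2, 3, 4, 5, 6,  7, 8, 2, 0, 6, 18,  8, 9, 10, 3, 0, 1,  2, 10, 11, 12, 4, 0,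
   0, 3, 12, 13, 14, 5,  6, 0, 4, 14, 15, 16,  18, 1, 0, 5, 16, 17,
   19, 19, 8, 1, 18, 19,  19, 19, 9, 2, 1, 7,  19, 19, 19, 10, 2, 8,
   9, 19, 19, 11, 3, 2,  10, 19, 19, 19, 12, 3,  3, 11, 19, 19, 13, 4,
   4, 12, 19, 19, 19, 14,  5, 4, 13, 19, 19, 15,  16, 5, 14, 19, 19, 19,
   17, 6, 5, 15, 19, 19,  19, 18, 6, 16, 19, 19,  19, 7, 1, 6, 17, 19].getD (6 * p + k) 19

def f6 (n : ℕ) : Fin 6 := ⟨n % 6, Nat.mod_lt _ (by decide)⟩
def bb (n : ℕ) : Bool := n % 2 == 1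

theorem nb_spec : ∀ p < 19, ∀ k < 6, nb p k < 19 →
    px (nb p k) = px p + dx (f6 k) ∧ py (nb p k) = py p + dy (f6 k) := by decide

/-! variables -/

def vT (p c : ℕ) : ℕ := 6 * p + c
def vG (p n : ℕ) : ℕ := 114 + (8 * p + n)
def vM (p a b : ℕ) : ℕ := 266 + (36 * p + (6 * a + b))
def vD (p k c : ℕ) : ℕ := 950 + (36 * p + (6 * k + c))
def vL (p k s c : ℕ) : ℕ := 1634 + (72 * p + (12 * k + (6 * s + c)))
def vI (p k s c : ℕ) : ℕ := 3002 + (72 * p + (12 * k + (6 * s + c)))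
def vO (p k s c : ℕ) : ℕ := 4370 + (72 * p + (12 * k + (6 * s + c)))
def vX (p k s c : ℕ) : ℕ := 5738 + (72 * p + (12 * k + (6 * s + c)))
def vW (t i x : ℕ) : ℕ := 7106 + (24 * (6 * t + i) + x)
def vIC (k c : ℕ) : ℕ := 7394 + (6 * k + c)
def vOC (k c : ℕ) : ℕ := 7430 + (6 * k + c)
def vXO (k y c : ℕ) : ℕ := 7466 + (18 * k + (6 * y + c))
def vXI (k y c : ℕ) : ℕ := 7574 + (18 * k + (6 * y + c))

/-- the two times of the neighbouring slots -/
def ta (y : ℕ) : Bool := y == 2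
def tb (y : ℕ) : Bool := 1 ≤ y

/-- the valuation -/
def nu (A : At) (v : ℕ) : Prop :=
  if v < 114 then A.TT (px (v / 6)) (py (v / 6)) (f6 v)
  else if v < 266 then A.GE (px ((v - 114) / 8)) (py ((v - 114) / 8)) ((v - 114) % 8)
  else if v < 950 then
    A.MM (px ((v - 266) / 36)) (py ((v - 266) / 36)) (f6 ((v - 266) % 36 / 6)) (f6 ((v - 266) % 6))
  else if v < 1634 then
    A.TT (px ((v - 950) / 36) + dx (f6 ((v - 950) % 36 / 6)))
        (py ((v - 950) / 36) + dy (f6 ((v - 950) % 36 / 6))) (f6 ((v - 950) % 6)) ∧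
      ¬ A.TT (px ((v - 950) / 36)) (py ((v - 950) / 36)) (f6 ((v - 950) % 6))
  else if v < 3002 then
    A.LT (bb ((v - 1634) / 6)) (px ((v - 1634) / 72)) (py ((v - 1634) / 72))
      (f6 ((v - 1634) % 72 / 12)) (f6 ((v - 1634) % 6))
  else if v < 4370 then
    A.IN (bb ((v - 3002) / 6)) (px ((v - 3002) / 72)) (py ((v - 3002) / 72))
      (f6 ((v - 3002) % 72 / 12)) (f6 ((v - 3002) % 6))
  else if v < 5738 then
    A.OUT (bb ((v - 4370) / 6)) (px ((v - 4370) / 72)) (py ((v - 4370) / 72))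
      (f6 ((v - 4370) % 72 / 12)) (f6 ((v - 4370) % 6))
  else if v < 7106 then
    A.LT (bb ((v - 5738) / 6)) (px ((v - 5738) / 72)) (py ((v - 5738) / 72))
      (f6 ((v - 5738) % 72 / 12)) (f6 ((v - 5738) % 6)) ∧
      ¬ A.TT (px ((v - 5738) / 72)) (py ((v - 5738) / 72)) (f6 ((v - 5738) % 6))
  else if v < 7394 then
    A.win (bb ((v - 7106) / 144)) (f6 ((v - 7106) / 24)) =
      ((((v - 7106) % 24 / 4 : ℕ) : ZMod 6), (v - 7106) % 4)
  else if v < 7430 then A.IC (f6 ((v - 7394) / 6)) (f6 ((v - 7394) % 6))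
  else if v < 7466 then A.OC (f6 ((v - 7430) / 6)) (f6 ((v - 7430) % 6))
  else if v < 7574 then
    A.OC (f6 ((v - 7466) / 18)) (f6 ((v - 7466) % 6)) ∧
      ¬ A.LT (ta ((v - 7466) % 18 / 6)) 0 0 (f6 ((v - 7466) / 18) + 1) (f6 ((v - 7466) % 6)) ∧
      ¬ A.LT (tb ((v - 7466) % 18 / 6)) 0 0 (f6 ((v - 7466) / 18) - 1) (f6 ((v - 7466) % 6))
  else
    A.IC (f6 ((v - 7574) / 18)) (f6 ((v - 7574) % 6)) ∧
      ¬ A.LT (tb ((v - 7574) % 18 / 6)) 0 0 (f6 ((v - 7574) / 18) + 1) (f6 ((v - 7574) % 6)) ∧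
      ¬ A.LT (ta ((v - 7574) % 18 / 6)) 0 0 (f6 ((v - 7574) / 18) - 1) (f6 ((v - 7574) % 6))

variable {A : At}

theorem f6_eq {a b : ℕ} (h : a % 6 = b % 6) : f6 a = f6 b := Fin.ext h

theorem bb_eq {a b : ℕ} (h : a % 2 = b % 2) : bb a = bb b := by unfold bb; rw [h]

theorem nuT {p c : ℕ} (hp : p < 19) (hc : c < 6) : nu A (vT p c) ↔ A.TT (px p) (py p) (f6 c) := by
  unfold nu vT
  rw [if_pos (by omega), show (6 * p + c) / 6 = p by omega, f6_eq (show (6 * p + c) % 6 = c % 6 by omega)]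

theorem nuG {p n : ℕ} (hp : p < 19) (hn : n < 8) : nu A (vG p n) ↔ A.GE (px p) (py p) n := by
  unfold nu vG
  rw [if_neg (by omega), if_pos (by omega), show (114 + (8 * p + n) - 114) / 8 = p by omega,
    show (114 + (8 * p + n) - 114) % 8 = n by omega]

theorem nuM {p a b : ℕ} (hp : p < 19) (ha : a < 6) (hb : b < 6) :
    nu A (vM p a b) ↔ A.MM (px p) (py p) (f6 a) (f6 b) := by
  unfold nu vM
  rw [if_neg (by omega), if_neg (by omega), if_pos (by omega),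
    show (266 + (36 * p + (6 * a + b)) - 266) / 36 = p by omega,
    f6_eq (show (266 + (36 * p + (6 * a + b)) - 266) % 36 / 6 % 6 = a % 6 by omega),
    f6_eq (show (266 + (36 * p + (6 * a + b)) - 266) % 6 % 6 = b % 6 by omega)]

theorem nuD {p k c : ℕ} (hp : p < 19) (hk : k < 6) (hc : c < 6) :
    nu A (vD p k c) ↔ A.TT (px p + dx (f6 k)) (py p + dy (f6 k)) (f6 c) ∧
      ¬ A.TT (px p) (py p) (f6 c) := by
  unfold nu vD
  rw [if_neg (by omega), if_neg (by omega), if_neg (by omega), if_pos (by omega),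
    show (950 + (36 * p + (6 * k + c)) - 950) / 36 = p by omega,
    f6_eq (show (950 + (36 * p + (6 * k + c)) - 950) % 36 / 6 % 6 = k % 6 by omega),
    f6_eq (show (950 + (36 * p + (6 * k + c)) - 950) % 6 % 6 = c % 6 by omega)]

theorem nuL {p k s c : ℕ} (hp : p < 19) (hk : k < 6) (hs : s < 2) (hc : c < 6) :
    nu A (vL p k s c) ↔ A.LT (bb s) (px p) (py p) (f6 k) (f6 c) := by
  unfold nu vL
  rw [if_neg (by omega), if_neg (by omega), if_neg (by omega), if_neg (by omega),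
    if_pos (by omega),
    show (1634 + (72 * p + (12 * k + (6 * s + c))) - 1634) / 72 = p by omega,
    f6_eq (show (1634 + (72 * p + (12 * k + (6 * s + c))) - 1634) % 72 / 12 % 6 = k % 6 by omega),
    f6_eq (show (1634 + (72 * p + (12 * k + (6 * s + c))) - 1634) % 6 % 6 = c % 6 by omega),
    bb_eq (show (1634 + (72 * p + (12 * k + (6 * s + c))) - 1634) / 6 % 2 = s % 2 by omega)]

theorem nuI {p k s c : ℕ} (hp : p < 19) (hk : k < 6) (hs : s < 2) (hc : c < 6) :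
    nu A (vI p k s c) ↔ A.IN (bb s) (px p) (py p) (f6 k) (f6 c) := by
  unfold nu vI
  rw [if_neg (by omega), if_neg (by omega), if_neg (by omega), if_neg (by omega),
    if_neg (by omega), if_pos (by omega),
    show (3002 + (72 * p + (12 * k + (6 * s + c))) - 3002) / 72 = p by omega,
    f6_eq (show (3002 + (72 * p + (12 * k + (6 * s + c))) - 3002) % 72 / 12 % 6 = k % 6 by omega),
    f6_eq (show (3002 + (72 * p + (12 * k + (6 * s + c))) - 3002) % 6 % 6 = c % 6 by omega),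
    bb_eq (show (3002 + (72 * p + (12 * k + (6 * s + c))) - 3002) / 6 % 2 = s % 2 by omega)]

theorem nuO {p k s c : ℕ} (hp : p < 19) (hk : k < 6) (hs : s < 2) (hc : c < 6) :
    nu A (vO p k s c) ↔ A.OUT (bb s) (px p) (py p) (f6 k) (f6 c) := by
  unfold nu vO
  rw [if_neg (by omega), if_neg (by omega), if_neg (by omega), if_neg (by omega),
    if_neg (by omega), if_neg (by omega), if_pos (by omega),
    show (4370 + (72 * p + (12 * k + (6 * s + c))) - 4370) / 72 = p by omega,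
    f6_eq (show (4370 + (72 * p + (12 * k + (6 * s + c))) - 4370) % 72 / 12 % 6 = k % 6 by omega),
    f6_eq (show (4370 + (72 * p + (12 * k + (6 * s + c))) - 4370) % 6 % 6 = c % 6 by omega),
    bb_eq (show (4370 + (72 * p + (12 * k + (6 * s + c))) - 4370) / 6 % 2 = s % 2 by omega)]

theorem nuX {p k s c : ℕ} (hp : p < 19) (hk : k < 6) (hs : s < 2) (hc : c < 6) :
    nu A (vX p k s c) ↔ A.LT (bb s) (px p) (py p) (f6 k) (f6 c) ∧
      ¬ A.TT (px p) (py p) (f6 c) := by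
  unfold nu vX
  rw [if_neg (by omega), if_neg (by omega), if_neg (by omega), if_neg (by omega),
    if_neg (by omega), if_neg (by omega), if_neg (by omega), if_pos (by omega),
    show (5738 + (72 * p + (12 * k + (6 * s + c))) - 5738) / 72 = p by omega,
    f6_eq (show (5738 + (72 * p + (12 * k + (6 * s + c))) - 5738) % 72 / 12 % 6 = k % 6 by omega),
    f6_eq (show (5738 + (72 * p + (12 * k + (6 * s + c))) - 5738) % 6 % 6 = c % 6 by omega),
    bb_eq (show (5738 + (72 * p + (12 * k + (6 * s + c))) - 5738) / 6 % 2 = s % 2 by omega)]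

theorem nuW {t i x : ℕ} (ht : t < 2) (hi : i < 6) (hx : x < 24) :
    nu A (vW t i x) ↔ A.win (bb t) (f6 i) = (((x / 4 : ℕ) : ZMod 6), x % 4) := by
  unfold nu vW
  rw [if_neg (by omega), if_neg (by omega), if_neg (by omega), if_neg (by omega),
    if_neg (by omega), if_neg (by omega), if_neg (by omega), if_neg (by omega), if_pos (by omega),
    bb_eq (show (7106 + (24 * (6 * t + i) + x) - 7106) / 144 % 2 = t % 2 by omega),
    f6_eq (show (7106 + (24 * (6 * t + i) + x) - 7106) / 24 % 6 = i % 6 by omega),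
    show (7106 + (24 * (6 * t + i) + x) - 7106) % 24 / 4 = x / 4 by omega,
    show (7106 + (24 * (6 * t + i) + x) - 7106) % 4 = x % 4 by omega]

theorem nuIC {k c : ℕ} (hk : k < 6) (hc : c < 6) : nu A (vIC k c) ↔ A.IC (f6 k) (f6 c) := by
  unfold nu vIC
  rw [if_neg (by omega), if_neg (by omega), if_neg (by omega), if_neg (by omega),
    if_neg (by omega), if_neg (by omega), if_neg (by omega), if_neg (by omega), if_neg (by omega),
    if_pos (by omega),
    f6_eq (show (7394 + (6 * k + c) - 7394) / 6 % 6 = k % 6 by omega),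
    f6_eq (show (7394 + (6 * k + c) - 7394) % 6 % 6 = c % 6 by omega)]

theorem nuOC {k c : ℕ} (hk : k < 6) (hc : c < 6) : nu A (vOC k c) ↔ A.OC (f6 k) (f6 c) := by
  unfold nu vOC
  rw [if_neg (by omega), if_neg (by omega), if_neg (by omega), if_neg (by omega),
    if_neg (by omega), if_neg (by omega), if_neg (by omega), if_neg (by omega), if_neg (by omega),
    if_neg (by omega), if_pos (by omega),
    f6_eq (show (7430 + (6 * k + c) - 7430) / 6 % 6 = k % 6 by omega),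
    f6_eq (show (7430 + (6 * k + c) - 7430) % 6 % 6 = c % 6 by omega)]

theorem nuXO {k y c : ℕ} (hk : k < 6) (hy : y < 3) (hc : c < 6) :
    nu A (vXO k y c) ↔ A.OC (f6 k) (f6 c) ∧ ¬ A.LT (ta y) 0 0 (f6 k + 1) (f6 c) ∧
      ¬ A.LT (tb y) 0 0 (f6 k - 1) (f6 c) := by
  unfold nu vXO
  rw [if_neg (by omega), if_neg (by omega), if_neg (by omega), if_neg (by omega),
    if_neg (by omega), if_neg (by omega), if_neg (by omega), if_neg (by omega), if_neg (by omega),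
    if_neg (by omega), if_neg (by omega), if_pos (by omega),
    f6_eq (show (7466 + (18 * k + (6 * y + c)) - 7466) / 18 % 6 = k % 6 by omega),
    f6_eq (show (7466 + (18 * k + (6 * y + c)) - 7466) % 6 % 6 = c % 6 by omega),
    show (7466 + (18 * k + (6 * y + c)) - 7466) % 18 / 6 = y by omega]

theorem nuXI {k y c : ℕ} (hk : k < 6) (hy : y < 3) (hc : c < 6) :
    nu A (vXI k y c) ↔ A.IC (f6 k) (f6 c) ∧ ¬ A.LT (tb y) 0 0 (f6 k + 1) (f6 c) ∧
      ¬ A.LT (ta y) 0 0 (f6 k - 1) (f6 c) := by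
  unfold nu vXI
  rw [if_neg (by omega), if_neg (by omega), if_neg (by omega), if_neg (by omega),
    if_neg (by omega), if_neg (by omega), if_neg (by omega), if_neg (by omega), if_neg (by omega),
    if_neg (by omega), if_neg (by omega), if_neg (by omega),
    f6_eq (show (7574 + (18 * k + (6 * y + c)) - 7574) / 18 % 6 = k % 6 by omega),
    f6_eq (show (7574 + (18 * k + (6 * y + c)) - 7574) % 6 % 6 = c % 6 by omega),
    show (7574 + (18 * k + (6 * y + c)) - 7574) % 18 / 6 = y by omega]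

/-! ### Clauses as lists of literals -/

/-- positive and negative literal -/
def P (v : ℕ) : ℕ := 2 * v
def N (v : ℕ) : ℕ := 2 * v + 1

theorem lit_P (ν : ℕ → Prop) (v : ℕ) : Lit ν (P v) ↔ ν v := by
  unfold Lit P; rw [if_pos (by omega), show 2 * v / 2 = v by omega]

theorem lit_N (ν : ℕ → Prop) (v : ℕ) : Lit ν (N v) ↔ ¬ ν v := by
  unfold Lit N; rw [if_neg (by omega), show (2 * v + 1) / 2 = v by omega]

/-- a clause is true -/
def CL (ν : ℕ → Prop) (c : List ℕ) : Prop := ∃ l ∈ c, Lit ν l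

theorem CL_cons {ν : ℕ → Prop} {l : ℕ} {c : List ℕ} : CL ν (l :: c) ↔ Lit ν l ∨ CL ν c := by
  unfold CL; simp

theorem CL_nil {ν : ℕ → Prop} : CL ν [] ↔ False := by unfold CL; simp

theorem CL_append {ν : ℕ → Prop} {c d : List ℕ} : CL ν (c ++ d) ↔ CL ν c ∨ CL ν d := by
  unfold CL; simp [or_and_right, exists_or]

/-- the mask of a clause -/
def mk (c : List ℕ) : ℕ := c.foldr (fun l m => Nat.lor (Nat.shiftLeft 1 l) m) 0

theorem sat_mk {ν : ℕ → Prop} {c : List ℕ} (h : CL ν c) : Sat ν (mk c) := by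
  obtain ⟨l, hl, h2⟩ := h
  refine ⟨l, ?_, h2⟩
  induction c with
  | nil => cases hl
  | cons a c ih =>
    show ((1 <<< a) ||| mk c).testBit l = true
    rw [Nat.testBit_or]
    rcases List.mem_cons.1 hl with rfl | h
    · have : (1 <<< l).testBit l = true := by
        rw [Nat.one_shiftLeft, Nat.testBit_two_pow_self]
      rw [this]; rfl
    · rw [ih h, Bool.or_true]

/-- the colours which satisfy `g`, as literals `f` -/
def cs (g : ℕ → Bool) (f : ℕ → ℕ) : List ℕ := ([0, 1, 2, 3, 4, 5].filter g).map f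

theorem CL_cs {ν : ℕ → Prop} {g : ℕ → Bool} {f : ℕ → ℕ} :
    CL ν (cs g f) ↔ ∃ c, c < 6 ∧ g c = true ∧ Lit ν (f c) := by
  unfold CL cs
  simp only [List.mem_map, List.mem_filter, List.mem_cons, List.not_mem_nil, or_false]
  constructor
  · rintro ⟨l, ⟨c, ⟨hc, hg⟩, rfl⟩, hl⟩
    exact ⟨c, by omega, hg, hl⟩
  · rintro ⟨c, hc, hg, hl⟩
    exact ⟨_, ⟨c, ⟨by omega, hg⟩, rfl⟩, hl⟩

/-- the windows `x = 4 a + n` which satisfy `g`, as literals `f` -/
def ws (g : ℕ → Bool) (f : ℕ → ℕ) : List ℕ :=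
  ([0, 1, 2, 3, 4, 5, 6, 7, 8, 9, 10, 11, 12, 13, 14, 15, 16, 17, 18, 19, 20, 21, 22, 23].filter
    g).map f

theorem CL_ws {ν : ℕ → Prop} {g : ℕ → Bool} {f : ℕ → ℕ} {x : ℕ} (hx : x < 24) (hg : g x = true)
    (hl : Lit ν (f x)) : CL ν (ws g f) := by
  refine ⟨f x, ?_, hl⟩
  unfold ws
  refine List.mem_map.2 ⟨x, List.mem_filter.2 ⟨?_, hg⟩, rfl⟩
  simp only [List.mem_cons, List.not_mem_nil, or_false]
  omega

end Vale.Agent.P032.H184
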